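import Vale.Agent.P176.H231.Dual
import Vale.Agent.P195.H231.Gnc
import Vale.Agent.P195.H231.Q.All

/-!
# P176: the finitistic dimension conjecture is false over every field that is not an algebraic
extension of a finite field
-/

open CategoryTheory CategoryTheory.Abelian MulOpposite

namespace Vale.Agent.P176.H231

universe u

theorem exists_findim_op (K : Type u) [Field K] {t : K} (h0 : t ≠ 0)
    (h : ∀ n : ℕ, 1 ≤ n → t ^ n ≠ 1) :
    ∃ (B : Type u) (_ : Ring B) (_ : Algebra K B), Module.Finite K B ∧ findim Bᵐᵒᵖ = ⊤ := by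
  obtain ⟨hq⟩ := Vale.Agent.P195.H231.exists_qpar h0 h
  obtain ⟨A, r, a, M, g, m, h1, h2, h3, h4, h5⟩ := Vale.Agent.P195Q.Van.main K
  have h4' : Vale.Agent.P195.Van.OrthPos A M M := fun i => h4 (i + 1) (Nat.succ_pos i)
  have h5' : Vale.Agent.P195.Van.OrthPos A M A := fun i => h5 (i + 1) (Nat.succ_pos i)
  obtain ⟨B, _, _, T, _, _, hB, hT, hE⟩ := Vale.Agent.P195.H231.gnc_of_ar (K := K) h3 h4' h5'
  have hN : IsNoetherianRing B := isNoetherian_of_tower K inferInstance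
  have hn : Nontrivial T := IsSimpleModule.nontrivial B T
  have hf : Module.Finite B T := inferInstance
  exact ⟨B, inferInstance, inferInstance, hB, findim_op_eq_top (T := T) hE⟩

theorem exists_all (K : Type u) [Field K] {t : K} (h0 : t ≠ 0)
    (h : ∀ n : ℕ, 1 ≤ n → t ^ n ≠ 1) :
    ∃ (A : Type u) (_ : Ring A) (_ : Algebra K A), Module.Finite K A ∧
      Nonempty (A ≃ₐ[K] Aᵐᵒᵖ) ∧ findim A = ⊤ ∧ findim Aᵐᵒᵖ = ⊤ := by
  obtain ⟨B, _, _, hB, hd⟩ := exists_findim_op K h0 h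
  have h1 : Module.Finite K Bᵐᵒᵖ := Module.Finite.equiv (MulOpposite.opLinearEquiv K)
  have h2 : Module.Finite K Bᵐᵒᵖᵐᵒᵖ := Module.Finite.equiv (MulOpposite.opLinearEquiv K)
  exact ⟨Bᵐᵒᵖ × Bᵐᵒᵖᵐᵒᵖ, inferInstance, inferInstance, inferInstance,
    ⟨Vale.Agent.P176.H807.selfOp K Bᵐᵒᵖ⟩, Vale.Agent.P176.H807.findim_prod hd,
    Vale.Agent.P176.H807.findim_prod_op hd⟩

end Vale.Agent.P176.H231
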