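import Vale.Agent.P176.H807.TwoSided
import Vale.Agent.P195.Bdl.B1

/-!
# P176: duality and the finitistic dimension of the opposite ring

If `B` is a Noetherian ring and `T` is a nonzero finitely generated `B`-module with
`Ext^i(T, B) = 0` for all `i ≥ 0`, then the little finitistic dimension of `Bᵐᵒᵖ` is infinite.
-/

set_option linter.all false

open CategoryTheory Function MulOpposite

namespace Vale.Agent.P176.H231

open Vale.Agent.P195.Van (EZ OrthPos orthPos_of_projective ez_zero_iff)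
open Vale.Agent.P176.HMod (PdLT)

universe u

variable {B : Type u} [Ring B]

section dual

variable {X Y Z : Type u} [AddCommGroup X] [Module B X] [AddCommGroup Y] [Module B Y]
  [AddCommGroup Z] [Module B Z]

/-- the dual of a linear map -/
def dm (f : X →ₗ[B] Y) : (Y →ₗ[B] B) →ₗ[Bᵐᵒᵖ] (X →ₗ[B] B) where
  toFun φ := φ ∘ₗ f
  map_add' _ _ := rfl
  map_smul' _ _ := rfl

theorem dm_apply (f : X →ₗ[B] Y) (φ : Y →ₗ[B] B) : dm f φ = φ ∘ₗ f := rfl

theorem expand {k : ℕ} (φ : (Fin k → B) →ₗ[B] B) :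
    φ = ∑ i, (op (φ (Pi.single i 1))) • (LinearMap.proj i : (Fin k → B) →ₗ[B] B) := by
  apply LinearMap.ext
  intro x
  rw [LinearMap.sum_apply]
  have h : x = ∑ i, x i • (Pi.single i 1 : Fin k → B) := by
    funext j
    rw [Finset.sum_apply]
    simp [Pi.single_apply]
  conv_lhs => rw [h, map_sum]
  refine Finset.sum_congr rfl fun i _ => ?_
  rw [map_smul]
  rfl

/-- the dual of a free module -/
def dualFree (k : ℕ) : ((Fin k → B) →ₗ[B] B) ≃ₗ[Bᵐᵒᵖ] (Fin k → Bᵐᵒᵖ) where
  toFun φ := fun i => op (φ (Pi.single i 1))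
  map_add' φ ψ := rfl
  map_smul' b φ := by
    funext i
    rfl
  invFun v := ∑ i, v i • (LinearMap.proj i : (Fin k → B) →ₗ[B] B)
  left_inv φ := (expand φ).symm
  right_inv v := by
    funext j
    apply unop_injective
    change (∑ i, v i • (LinearMap.proj i : (Fin k → B) →ₗ[B] B)) (Pi.single j 1) = unop (v j)
    rw [LinearMap.sum_apply]
    have : ∀ i, (v i • (LinearMap.proj i : (Fin k → B) →ₗ[B] B)) (Pi.single j 1) =
        if i = j then unop (v j) else 0 := by
      intro i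
      change (Pi.single j 1 : Fin k → B) i * unop (v i) = _
      by_cases h : i = j
      · subst h; simp
      · simp [h]
    simp [this]

theorem projective_dualFree (k : ℕ) : Module.Projective Bᵐᵒᵖ ((Fin k → B) →ₗ[B] B) :=
  Module.Projective.of_equiv' (dualFree k).symm

theorem finite_dualFree (k : ℕ) : Module.Finite Bᵐᵒᵖ ((Fin k → B) →ₗ[B] B) :=
  Module.Finite.equiv (dualFree k).symm

/-- maps vanishing on the kernel factor -/
theorem exists_factor {f : X →ₗ[B] Y} {g : Y →ₗ[B] Z} (s : Vale.Agent.P195.Van.SES f g)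
    (φ : Y →ₗ[B] B) (h : φ ∘ₗ f = 0) : ∃ ψ : Z →ₗ[B] B, ψ ∘ₗ g = φ := by
  choose y hy using s.surj
  have key : ∀ a b, g a = g b → φ a = φ b := by
    intro a b hab
    have h1 : g (a - b) = 0 := by rw [map_sub, hab, sub_self]
    obtain ⟨c, hc⟩ := (s.exact (a - b)).1 h1
    have h2 : φ (f c) = 0 := LinearMap.congr_fun h c
    rw [hc, map_sub, sub_eq_zero] at h2
    exact h2
  refine ⟨{ toFun := fun x => φ (y x), map_add' := ?_, map_smul' := ?_ }, ?_⟩
  · intro a b
    rw [← map_add]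
    exact key _ _ (by rw [map_add, hy, hy, hy])
  · intro a b
    rw [RingHom.id_apply, ← map_smul]
    exact key _ _ (by rw [map_smul, hy, hy])
  · apply LinearMap.ext
    intro x
    exact key _ _ (hy _)

/-- the dual of a short exact sequence -/
theorem ses_dual {f : X →ₗ[B] Y} {g : Y →ₗ[B] Z} (s : Vale.Agent.P195.Van.SES f g)
    (h : EZ B 1 Z B) : Vale.Agent.P195.Van.SES (dm g) (dm f) where
  inj := by
    intro φ ψ h1
    apply LinearMap.ext
    intro z
    obtain ⟨y, rfl⟩ := s.surj z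
    exact LinearMap.congr_fun h1 y
  exact := by
    intro φ
    constructor
    · intro h1
      exact exists_factor s φ h1
    · rintro ⟨ψ, rfl⟩
      apply LinearMap.ext
      intro x
      change ψ (g (f x)) = 0
      rw [(s.exact (f x)).2 ⟨x, rfl⟩, map_zero]
  surj := fun u => s.extend h u

theorem ses_dual' {f : X →ₗ[B] Y} {g : Y →ₗ[B] Z} (s : Vale.Agent.P195.Van.SES f g)
    (h : EZ B 1 Z B) : Vale.Agent.P176.HMod.SES (dm g) (dm f) :=
  ⟨(ses_dual s h).inj, (ses_dual s h).exact, (ses_dual s h).surj⟩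

end dual

/-- a presentation of a finitely generated module over a Noetherian ring -/
theorem exists_ses [IsNoetherianRing B] (X : Type u) [AddCommGroup X] [Module B X]
    [Module.Finite B X] : ∃ (k : ℕ) (S : Type u) (_ : AddCommGroup S) (_ : Module B S)
      (f : S →ₗ[B] (Fin k → B)) (g : (Fin k → B) →ₗ[B] X),
      Module.Finite B S ∧ Vale.Agent.P195.Van.SES f g := by
  obtain ⟨k, g, hg⟩ := Module.Finite.exists_fin' B X
  exact ⟨k, LinearMap.ker g, inferInstance, inferInstance, (LinearMap.ker g).subtype, g,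
    inferInstance, Subtype.val_injective, fun x =>
    ⟨fun h => ⟨⟨x, h⟩, rfl⟩, fun ⟨y, hy⟩ => hy ▸ y.2⟩, hg⟩

/-- the dual of `X` has projective dimension exactly `n` -/
structure Good (B : Type u) [Ring B] (n : ℕ) (X : Type u) [AddCommGroup X] [Module B X] :
    Prop where
  fin : Module.Finite B X
  orth : OrthPos B X B
  dfin : Module.Finite Bᵐᵒᵖ (X →ₗ[B] B)
  pd : PdLT Bᵐᵒᵖ (X →ₗ[B] B) (n + 1)
  npd : ¬ PdLT Bᵐᵒᵖ (X →ₗ[B] B) n

theorem good_step [IsNoetherianRing B] {n : ℕ} {X : Type u} [AddCommGroup X] [Module B X]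
    (h : Good B (n + 1) X) : ∃ (S : Type u) (_ : AddCommGroup S) (_ : Module B S),
      Good B (n + 2) S := by
  have := h.fin
  obtain ⟨k, S, _, _, f, g, hS, s⟩ := exists_ses (B := B) X
  have hs := ses_dual' s (h.orth 0)
  have hF := projective_dualFree (B := B) k
  have hF' := finite_dualFree (B := B) k
  have hp : PdLT Bᵐᵒᵖ ((Fin k → B) →ₗ[B] B) 1 := PdLT.of_projective
  refine ⟨S, inferInstance, inferInstance, hS, s.orthPos_left₁ orthPos_of_projective h.orth,
    Module.Finite.of_surjective (dm f) hs.surj, ?_, ?_⟩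
  · exact hs.pdLT₃ h.pd (hp.mono (by omega))
  · intro hc
    exact h.npd (hs.pdLT₁ (hp.mono (by omega)) hc)

theorem good_start [IsNoetherianRing B] {T : Type u} [AddCommGroup T] [Module B T]
    [Nontrivial T] [Module.Finite B T] (h : ∀ i, EZ B i T B) :
    ∃ (S : Type u) (_ : AddCommGroup S) (_ : Module B S), Good B 1 S := by
  obtain ⟨k, S0, _, _, f0, g0, hS0, s0⟩ := exists_ses (B := B) T
  obtain ⟨m, S1, _, _, f1, g1, hS1, s1⟩ := exists_ses (B := B) S0
  have o0 : OrthPos B S0 B := s0.orthPos_left₁ orthPos_of_projective (fun i => h (i + 1))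
  have o1 : OrthPos B S1 B := s1.orthPos_left₁ orthPos_of_projective o0
  -- the dual of `S0` is the dual of a free module
  have hbij : Function.Bijective (dm f0) := by
    refine ⟨?_, (ses_dual s0 (h 1)).surj⟩
    rw [injective_iff_map_eq_zero]
    intro φ hφ
    obtain ⟨ψ, rfl⟩ := exists_factor s0 φ hφ
    rw [ez_zero_iff.1 (h 0) ψ, LinearMap.zero_comp]
  let e := LinearEquiv.ofBijective (dm f0) hbij
  have p0 := projective_dualFree (B := B) k
  have p0' : Module.Projective Bᵐᵒᵖ (S0 →ₗ[B] B) := Module.Projective.of_equiv' e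
  have hp0 : PdLT Bᵐᵒᵖ (S0 →ₗ[B] B) 1 := PdLT.of_projective
  have hF := projective_dualFree (B := B) m
  have hF' := finite_dualFree (B := B) m
  have hp : PdLT Bᵐᵒᵖ ((Fin m → B) →ₗ[B] B) 1 := PdLT.of_projective
  have hs := ses_dual' s1 (o0 0)
  refine ⟨S1, inferInstance, inferInstance, hS1, o1,
    Module.Finite.of_surjective (dm f1) hs.surj, hs.pdLT₃ hp0 (hp.mono (by omega)), ?_⟩
  intro hc
  have hproj : Module.Projective Bᵐᵒᵖ (S1 →ₗ[B] B) := Vale.Agent.P176.H807.pdLT_one_iff.1 hc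
  obtain ⟨v, hv⟩ := (ses_dual s1 (o0 0)).extend (N := (S0 →ₗ[B] B))
    ((orthPos_of_projective : OrthPos Bᵐᵒᵖ (S1 →ₗ[B] B) (S0 →ₗ[B] B)) 0) LinearMap.id
  -- the retraction
  let ρ : ((Fin m → B) →ₗ[B] B) →ₗ[Bᵐᵒᵖ] ((Fin k → B) →ₗ[B] B) := e.symm.toLinearMap ∘ₗ v
  have hρ : ∀ φ : (Fin k → B) →ₗ[B] B, ρ (φ ∘ₗ (f0 ∘ₗ g1)) = φ := by
    intro φ
    change e.symm (v (dm g1 (dm f0 φ))) = φ
    have h1 : v (dm g1 (dm f0 φ)) = dm f0 φ := LinearMap.congr_fun hv (dm f0 φ)
    rw [h1]
    exact e.symm_apply_apply φ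
  let σ : (Fin k → B) →ₗ[B] (Fin m → B) := LinearMap.pi fun j => ρ (LinearMap.proj j)
  have hσ : ∀ x, f0 (g1 (σ x)) = x := by
    intro x
    have key : ∀ φ : (Fin k → B) →ₗ[B] B, φ (f0 (g1 (σ x))) = φ x := by
      intro φ
      have h2 := expand (φ ∘ₗ (f0 ∘ₗ g1))
      have h3 : (φ ∘ₗ (f0 ∘ₗ g1)) (σ x) = φ x := by
        conv_rhs => rw [← hρ φ, h2, map_sum, LinearMap.sum_apply]
        rw [h2, LinearMap.sum_apply]
        refine Finset.sum_congr rfl fun i _ => ?_
        rw [map_smul, ← h2]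
        rfl
      exact h3
    funext i
    exact key (LinearMap.proj i)
  have hsurj : ∀ t : T, t = 0 := by
    intro t
    obtain ⟨y, rfl⟩ := s0.surj t
    rw [← hσ y]
    exact (s0.exact _).2 ⟨_, rfl⟩
  obtain ⟨t, ht⟩ := exists_ne (0 : T)
  exact ht (hsurj t)

theorem exists_good [IsNoetherianRing B] {T : Type u} [AddCommGroup T] [Module B T]
    [Nontrivial T] [Module.Finite B T] (h : ∀ i, EZ B i T B) (n : ℕ) :
    ∃ (S : Type u) (_ : AddCommGroup S) (_ : Module B S), Good B (n + 1) S := by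
  induction n with
  | zero => exact good_start h
  | succ n ih =>
    obtain ⟨S, _, _, hS⟩ := ih
    exact good_step hS

/-- A nonzero finitely generated module `T` with `Ext^i(T, B) = 0` for all `i ≥ 0` forces the
little finitistic dimension of the opposite ring to be infinite. -/
theorem findim_op_eq_top [IsNoetherianRing B] {T : Type u} [AddCommGroup T] [Module B T]
    [Nontrivial T] [Module.Finite B T] (h : ∀ i, EZ B i T B) : findim Bᵐᵒᵖ = ⊤ := by
  refine findim_eq_top fun p => ?_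
  obtain ⟨S, _, _, hS⟩ := exists_good h p
  exact ⟨S →ₗ[B] B, inferInstance, inferInstance, p + 1, hS.dfin, by omega, hS.pd, hS.npd⟩

end Vale.Agent.P176.H231
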